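import Vale.Agent.P038.K4.Defs

/-!
# Local conditions at one vertex
-/

namespace Vale.Agent.P038.K4

variable {V : Type*}

/-- No `K₄` of the underlying graph contains `v0` or an out-neighbour of `v0`. -/
def NoK4Near (D : OGraph V) (v0 : V) : Prop :=
  ∀ a b c d, (a = v0 ∨ D.arc v0 a) → Joined D a b → Joined D a c → Joined D a d → Joined D b c →
    Joined D b d → Joined D c d → False

/-- Every `K₄` of the underlying graph that contains `v0` or an out-neighbour of `v0` has a vertex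
dominated by its three other vertices and no vertex dominating its three other vertices. -/
def OnlySinkK4Near (D : OGraph V) (v0 : V) : Prop :=
  ∀ a b c d, (a = v0 ∨ D.arc v0 a) → Joined D a b → Joined D a c → Joined D a d → Joined D b c →
    Joined D b d → Joined D c d →
    ((D.arc b a ∧ D.arc c a ∧ D.arc d a) ∨ (D.arc a b ∧ D.arc c b ∧ D.arc d b) ∨
      (D.arc a c ∧ D.arc b c ∧ D.arc d c) ∨ (D.arc a d ∧ D.arc b d ∧ D.arc c d)) ∧
    ¬ (D.arc a b ∧ D.arc a c ∧ D.arc a d) ∧ ¬ (D.arc b a ∧ D.arc b c ∧ D.arc b d) ∧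
    ¬ (D.arc c a ∧ D.arc c b ∧ D.arc c d) ∧ ¬ (D.arc d a ∧ D.arc d b ∧ D.arc d c)

/-- The consequences that the proof uses. -/
def LocalFree (D : OGraph V) (v0 : V) : Prop :=
  (∀ u, (u = v0 ∨ D.arc v0 u) → ∀ a b c, D.arc u a → D.arc u b → D.arc u c →
    Joined D a b → Joined D b c → Joined D a c → False) ∧
  ∀ u, D.arc v0 u → ∀ a x y, D.arc u a → D.arc u x → D.arc a y → D.arc x y → D.arc y u →
    Joined D a x → False

theorem NoK4Near.onlySink {D : OGraph V} {v0 : V} (h : NoK4Near D v0) : OnlySinkK4Near D v0 :=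
  fun a b c d h0 h1 h2 h3 h4 h5 h6 => (h a b c d h0 h1 h2 h3 h4 h5 h6).elim

theorem NoK4.near {D : OGraph V} (h : NoK4 D) (v0 : V) : NoK4Near D v0 :=
  fun a b c d _ h1 h2 h3 h4 h5 h6 => h a b c d h1 h2 h3 h4 h5 h6

theorem OnlySinkK4Near.localFree {D : OGraph V} {v0 : V} (h : OnlySinkK4Near D v0) :
    LocalFree D v0 := by
  constructor
  · intro v hv a b c va vb vc ab bc ac
    exact (h v a b c hv (Or.inl va) (Or.inl vb) (Or.inl vc) ab ac bc).2.1 ⟨va, vb, vc⟩
  · intro u hu a x y ua ux ay xy yu ax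
    rcases (h u a x y (Or.inr hu) (Or.inl ua) (Or.inl ux) (Or.inr yu) ax (Or.inl ay)
      (Or.inl xy)).1 with h1 | h1 | h1 | h1
    · exact D.asymm _ _ ua h1.1
    · exact D.asymm _ _ ay h1.2.2
    · exact D.asymm _ _ xy h1.2.2
    · exact D.asymm _ _ yu h1.1

end Vale.Agent.P038.K4
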