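import Vale.Agent.P038.K4.H1
import Vale.Agent.P038.K4.L.Defs

/-!
# The plain frame under local conditions
-/

namespace Vale.Agent.P038.K4

open Finset

variable {V : Type*} [Fintype V]

open Classical in
theorem frame0L (D : OGraph V) (w : V → ℝ) (hw : ∀ v, 0 ≤ w v) (v0 u a z : V) (hD : LocalFree D v0)
    (hu : D.arc v0 u) (hva : D.arc v0 a) (hua : D.arc u a) (huz : D.arc u z) :
    wt w (N1 D z) + wt w (Qs D (N1 D v0) a) + wt w (Qs D (N2 D v0) a \ Qs D (N2 D v0) u) ≤
      wt w (N2 D u) + wt w (N1 D z ∩ Qs D (N1 D v0) u) + wt w (N1 D z ∩ Qs D (N1 D v0) a)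
      + wt w (N1 D z ∩ Qs D (N2 D v0) u)
      + wt w (N1 D z ∩ (Qs D (N2 D v0) a \ Qs D (N2 D v0) u)) := by
  simp only [wt_eq]
  simp only [← Finset.sum_add_distrib]
  refine Finset.sum_le_sum fun y _ => ?_
  have hwy := hw y
  have g1 : y ∈ Qs D (N1 D v0) a → y ∈ N2 D u := by
    intro h
    rw [mem_Qs, mem_N1] at h
    refine mem_N2.2 ⟨?_, ?_, a, hua, h.2⟩
    · rintro rfl
      exact D.asymm _ _ hua h.2
    · intro huy
      exact hD.1 v0 (Or.inl rfl) u a y hu hva h.1 (Or.inl hua) (Or.inl h.2) (Or.inl huy)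
  have g2 : y ∈ Qs D (N2 D v0) a \ Qs D (N2 D v0) u → y ∈ N2 D u := by
    intro h
    rw [Finset.mem_sdiff, mem_Qs, mem_Qs] at h
    refine mem_N2.2 ⟨?_, ?_, a, hua, h.1.2⟩
    · rintro rfl
      exact D.asymm _ _ hua h.1.2
    · intro huy
      exact h.2 ⟨h.1.1, huy⟩
  have g3 : y ∈ N1 D z → y ∉ N2 D u → y ∈ Qs D (N1 D v0) u ∨ y ∈ Qs D (N2 D v0) u := by
    intro h1 h2
    rw [mem_N1] at h1
    have huy : D.arc u y := by
      by_contra hn
      refine h2 (mem_N2.2 ⟨?_, hn, z, huz, h1⟩)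
      rintro rfl
      exact D.asymm _ _ huz h1
    by_cases h : D.arc v0 y
    · exact Or.inl (mem_Qs.2 ⟨mem_N1.2 h, huy⟩)
    · refine Or.inr (mem_Qs.2 ⟨mem_N2.2 ⟨?_, h, u, hu, huy⟩, huy⟩)
      rintro rfl
      exact D.asymm _ _ hu huy
  have g4 : y ∈ Qs D (N1 D v0) a → y ∉ Qs D (N2 D v0) a \ Qs D (N2 D v0) u := by
    intro h h'
    rw [mem_Qs, mem_N1] at h
    rw [Finset.mem_sdiff, mem_Qs, mem_N2] at h'
    exact h'.1.1.2.1 h.1
  by_cases c1 : y ∈ Qs D (N1 D v0) a
  · have c2 := g4 c1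
    have c3 := g1 c1
    simp only [Finset.mem_inter, c1, c2, c3, if_true, if_false, and_true, and_false]
    split_ifs <;> linarith
  · by_cases c2 : y ∈ Qs D (N2 D v0) a \ Qs D (N2 D v0) u
    · have c3 := g2 c2
      simp only [Finset.mem_inter, c1, c2, c3, if_true, if_false, and_true, and_false]
      split_ifs <;> linarith
    · by_cases c4 : y ∈ N1 D z
      · by_cases c5 : y ∈ N2 D u
        · simp only [Finset.mem_inter, c1, c2, c4, c5, if_true, if_false, and_false, true_and]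
          split_ifs <;> linarith
        · rcases g3 c4 c5 with h | h
          · simp only [Finset.mem_inter, c1, c2, c4, c5, h, if_true, if_false, and_false, true_and]
            split_ifs <;> linarith
          · simp only [Finset.mem_inter, c1, c2, c4, c5, h, if_true, if_false, and_false, true_and]
            split_ifs <;> linarith
      · simp only [Finset.mem_inter, c1, c2, c4, if_false, and_false, false_and]
        split_ifs <;> linarith

open Classical in
/-- The arcs that the forbidden `K₄`s allow inside `Q_u` and from `Q_u` to `Q_a \ Q_u`. -/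
theorem costL (D : OGraph V) (v0 : V) (hD : LocalFree D v0) (w : V → ℝ) (hw : ∀ v, 0 ≤ w v) (B : Finset V)
    (u a : V) (hu : D.arc v0 u) (hua : D.arc u a) :
    ew D w (Qs D B u) (Qs D B u) + ew D w (Qs D B u) (Qs D B a \ Qs D B u) ≤
      wt w (Qs D B u ∩ Es D B a) ^ 2 / 4 +
      wt w (Qs D B u ∩ Es D B a) * (wt w (Qs D B u) - wt w (Qs D B u ∩ Es D B a)) +
      wt w (Qs D B u ∩ Es D B a) * wt w (Fs D B u ∩ Qs D B a) +
      wt w (Qs D B u) * wt w (Es D B u ∩ Qs D B a) := by
  set Q := Qs D B u with hQ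
  set M := Q ∩ Es D B a with hM
  have hMQ : M ⊆ Q := Finset.inter_subset_left
  have hadj : ∀ z ∈ Q \ M, D.arc u z ∧ Joined D a z := by
    intro z hz
    rw [Finset.mem_sdiff, hM, Finset.mem_inter, hQ, mem_Qs, mem_Es] at hz
    refine ⟨hz.1.2, ?_⟩
    by_contra hn
    unfold Joined at hn
    push Not at hn
    exact hz.2 ⟨hz.1, hz.1.1, hn.1, hn.2⟩
  have h1 : ew D w (Q \ M) (Q \ M) = 0 := by
    refine ew_eq_zero D w _ _ fun x hx y hy hxy => ?_
    obtain ⟨x1, x2⟩ := hadj x hx
    obtain ⟨y1, y2⟩ := hadj y hy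
    exact hD.1 u (Or.inr hu) a x y hua x1 y1 x2 (Or.inl hxy) y2
  have h2 : ew D w Q Q = ew D w M M + ew D w M (Q \ M) + ew D w (Q \ M) M := by
    rw [ew_split_left D w hMQ Q, ew_split_right D w M hMQ, ew_split_right D w (Q \ M) hMQ, h1]
    ring
  have h3 : ew D w M M ≤ wt w M ^ 2 / 4 := by
    refine mantel D w hw M fun x hx y hy z hz hxy hyz hxz => ?_
    have hx' := (mem_Qs.1 (hMQ hx)).2
    have hy' := (mem_Qs.1 (hMQ hy)).2
    have hz' := (mem_Qs.1 (hMQ hz)).2
    exact hD.1 u (Or.inr hu) x y z hx' hy' hz' hxy hyz hxz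
  have h4 : ew D w M (Q \ M) + ew D w (Q \ M) M ≤ wt w M * (wt w Q - wt w M) := by
    have h5 := ew_add_le D w hw M (Q \ M)
    have h6 : wt w Q - wt w M = ∑ y ∈ Q \ M, w y := by
      have := Finset.sum_sdiff hMQ (f := w)
      unfold wt
      linarith
    rw [h6]
    exact h5
  have hsub : Fs D B u ∩ Qs D B a ⊆ Qs D B a \ Q := by
    intro y hy
    rw [Finset.mem_inter, mem_Fs] at hy
    rw [Finset.mem_sdiff, hQ, mem_Qs (u := u)]
    exact ⟨hy.2, fun h => D.asymm _ _ h.2 hy.1.2⟩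
  have hrest : (Qs D B a \ Q) \ (Fs D B u ∩ Qs D B a) = Es D B u ∩ Qs D B a := by
    ext y
    simp only [Finset.mem_sdiff, Finset.mem_inter, hQ, mem_Qs, mem_Fs, mem_Es]
    tauto
  have h7 : ew D w Q (Qs D B a \ Q) = ew D w M (Fs D B u ∩ Qs D B a) +
      ew D w (Q \ M) (Fs D B u ∩ Qs D B a) + ew D w Q (Es D B u ∩ Qs D B a) := by
    rw [ew_split_right D w Q hsub, hrest, ew_split_left D w hMQ (Fs D B u ∩ Qs D B a)]
  have h8 : ew D w (Q \ M) (Fs D B u ∩ Qs D B a) = 0 := by
    refine ew_eq_zero D w _ _ fun x hx y hy hxy => ?_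
    obtain ⟨x1, x2⟩ := hadj x hx
    rw [Finset.mem_inter, mem_Fs, mem_Qs] at hy
    exact hD.2 u hu a x y hua x1 hy.2.2 hxy hy.1.2 x2
  have h9 := ew_le_mul D w hw M (Fs D B u ∩ Qs D B a)
  have h10 := ew_le_mul D w hw Q (Es D B u ∩ Qs D B a)
  rw [h2, h7, h8]
  linarith

open Classical in
/-- The plain frame for an arc `u → a` of `D[A]`, averaged over `z ∈ Q_u`. -/
theorem pair_frameL (D : OGraph V) (w : V → ℝ) (hw : ∀ v, 0 ≤ w v) (v0 u a : V) (hD : LocalFree D v0)
    (hu : D.arc v0 u) (hva : D.arc v0 a) (hua : D.arc u a)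
    (hmin : ∀ v, 1 ≤ wt w (N1 D v)) (hcon : wt w (N2 D u) < wt w (N1 D u))
    (hq : 0 < qv D w (N2 D v0) u) :
    xw D w (N1 D v0) a + qv D w (N2 D v0) a - (xw D w (N1 D v0) u + qv D w (N2 D v0) u)
      + fv D w (N2 D v0) u + bv D w (N2 D v0) u a + epv D w (N2 D v0) u a
      + mv D w (N2 D v0) u a * (3/4 * mv D w (N2 D v0) u a - phv D w (N2 D v0) u a) /
        qv D w (N2 D v0) u
      - (ew D w (Qs D (N2 D v0) u) (Qs D (N1 D v0) u) +
          ew D w (Qs D (N2 D v0) u) (Qs D (N1 D v0) a)) / qv D w (N2 D v0) u < 0 := by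
  set A := N1 D v0 with hA
  set B := N2 D v0 with hB
  -- out-weight of u
  have hN1 : wt w (N1 D u) = xw D w A u + qv D w B u := by
    rw [xw_eq, qv]
    unfold wt
    rw [← Finset.sum_union]
    · refine Finset.sum_congr ?_ fun _ _ => rfl
      ext y
      rw [Finset.mem_union, mem_Qs, mem_Qs, mem_N1, mem_N1, mem_N2]
      constructor
      · intro h
        by_cases h' : D.arc v0 y
        · exact Or.inl ⟨h', h⟩
        · refine Or.inr ⟨⟨?_, h', u, hu, h⟩, h⟩
          rintro rfl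
          exact D.asymm _ _ hu h
      · rintro (h | h)
        · exact h.2
        · exact h.2
    · rw [Finset.disjoint_left]
      intro y hy hy'
      rw [mem_Qs, mem_N1] at hy
      rw [mem_Qs, mem_N2] at hy'
      exact hy'.1.2.1 hy.1
  -- sum the frame over z
  have hsum : qv D w B u * (1 + xw D w A a + wt w (Qs D B a \ Qs D B u)) ≤
      qv D w B u * wt w (N2 D u) + ew D w (Qs D B u) (Qs D A u) + ew D w (Qs D B u) (Qs D A a)
      + ew D w (Qs D B u) (Qs D B u) + ew D w (Qs D B u) (Qs D B a \ Qs D B u) := by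
    rw [ew_eq_inter', ew_eq_inter', ew_eq_inter', ew_eq_inter']
    have e1 : qv D w B u = ∑ z ∈ Qs D B u, w z := rfl
    rw [e1, Finset.sum_mul, Finset.sum_mul, ← Finset.sum_add_distrib, ← Finset.sum_add_distrib,
      ← Finset.sum_add_distrib, ← Finset.sum_add_distrib]
    refine Finset.sum_le_sum fun z hz => ?_
    have h1 := frame0L D w hw v0 u a z hD hu hva hua (mem_Qs.1 hz).2
    have h2 := hmin z
    have h3 := hw z
    rw [xw_eq]
    have h4 : 1 + wt w (Qs D A a) + wt w (Qs D B a \ Qs D B u) ≤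
      wt w (N2 D u) + wt w (N1 D z ∩ Qs D A u) + wt w (N1 D z ∩ Qs D A a)
      + wt w (N1 D z ∩ Qs D B u)
      + wt w (N1 D z ∩ (Qs D B a \ Qs D B u)) := by linarith
    have h5 := mul_le_mul_of_nonneg_left h4 h3
    linarith
  have hcost := costL D v0 hD w hw B u a hu hua
  have hp := wt_inter_partition D w B (Qs D B u) (Qs_sub D B u) a
  have hq1 : wt w (Qs D B a \ Qs D B u) = qv D w B a - wt w (Qs D B u ∩ Qs D B a) := by
    have h := Finset.sum_inter_add_sum_sdiff (Qs D B a) (Qs D B u) w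
    have h' : Qs D B a ∩ Qs D B u = Qs D B u ∩ Qs D B a := Finset.inter_comm _ _
    rw [h'] at h
    unfold qv wt
    linarith
  rw [hq1] at hsum
  have hstrict : qv D w B u * wt w (N2 D u) < qv D w B u * (xw D w A u + qv D w B u) := by
    rw [← hN1]
    exact mul_lt_mul_of_pos_left hcon hq
  -- abbreviations
  have m1 : mv D w B u a = wt w (Qs D B u ∩ Es D B a) := rfl
  have b1 : bv D w B u a = wt w (Qs D B u ∩ Fs D B a) := rfl
  have p1 : phv D w B u a = wt w (Fs D B u ∩ Qs D B a) := rfl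
  have q1 : qv D w B u = wt w (Qs D B u) := rfl
  have e1 : epv D w B u a = 1 - qv D w B u - fv D w B u - wt w (Es D B u ∩ Qs D B a) := rfl
  rw [← m1, ← p1, ← q1] at hcost
  rw [← m1, ← b1, ← q1] at hp
  set s := wt w (Qs D B u ∩ Qs D B a) with hs
  set E' := wt w (Es D B u ∩ Qs D B a) with hE'
  rw [e1]
  set q := qv D w B u with hqdef
  set m := mv D w B u a
  set b := bv D w B u a
  set ph := phv D w B u a
  set C1 := ew D w (Qs D B u) (Qs D A u)
  set C2 := ew D w (Qs D B u) (Qs D A a)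
  have hmain : q * (xw D w A a + qv D w B a - (xw D w A u + q) + 1 - s - m - E') +
      m * (3/4*m - ph) - (C1 + C2) < 0 := by nlinarith
  have hrw : xw D w A a + qv D w B a - (xw D w A u + q) + fv D w B u + b +
      (1 - q - fv D w B u - E') + m * (3/4 * m - ph) / q - (C1 + C2) / q =
      (q * (xw D w A a + qv D w B a - (xw D w A u + q) + 1 - s - m - E') +
      m * (3/4*m - ph) - (C1 + C2)) / q := by
    field_simp
    rw [hp]
    ring
  rw [hrw]
  exact div_neg_of_neg_of_pos hmain hq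

theorem frameH1L (D : OGraph V) (w : V → ℝ) (hw : ∀ v, 0 ≤ w v) (v0 u : V)
    (hD : LocalFree D v0)
    (hu : D.arc v0 u)
    (hmin : ∀ v, 1 ≤ wt w (N1 D v)) (hcon : wt w (N2 D u) < wt w (N1 D u))
    (hx : ∀ a, D.arc v0 a → 0 < xw D w (N1 D v0) a) (hq : 0 < qv D w (N2 D v0) u) :
    ∑ a ∈ N1 D v0, ∑ b ∈ N1 D v0, Mk D w (N1 D v0) u a * Mk D w (N1 D v0) a b *
      ((xw D w (N1 D v0) a + qv D w (N2 D v0) a - 1) -
        (xw D w (N1 D v0) u + qv D w (N2 D v0) u - 1) +
        TTT D w (N1 D v0) (N2 D v0) u a b) < 0 := by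
  classical
  set A := N1 D v0 with hA
  set B := N2 D v0 with hB
  have hqe : 1 - (fv D w B u + gv D w B u) = qv D w B u := by unfold gv; ring
  set C1 := ew D w (Qs D B u) (Qs D A u) with hC1
  set q := qv D w B u with hqd
  -- inner sum
  have hin : ∀ a ∈ A, Mk D w A u a * ∑ b ∈ A, Mk D w A a b *
      ((xw D w A a + qv D w B a - 1) - (xw D w A u + q - 1) + TTT D w A B u a b) ≤
      Mk D w A u a * (C1 / q - bv D w B u a * (xw D w A u / q)) ∧ (0 < Mk D w A u a →
      Mk D w A u a * ∑ b ∈ A, Mk D w A a b *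
      ((xw D w A a + qv D w B a - 1) - (xw D w A u + q - 1) + TTT D w A B u a b) <
      Mk D w A u a * (C1 / q - bv D w B u a * (xw D w A u / q))) := by
    intro a ha
    have key : D.arc u a → ∑ b ∈ A, Mk D w A a b *
      ((xw D w A a + qv D w B a - 1) - (xw D w A u + q - 1) + TTT D w A B u a b) <
      C1 / q - bv D w B u a * (xw D w A u / q) := by
      intro hua
      have hxa := hx a (mem_N1.1 ha)
      have h1 := pair_frameL D w hw v0 u a hD hu (mem_N1.1 ha) hua hmin hcon hq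
      rw [← hA, ← hB, ← hqd, ← hC1] at h1
      have h2 : ∑ b ∈ A, Mk D w A a b * (xw D w A a * bv D w B u b / q) =
          ew D w (Qs D B u) (Qs D A a) / q := by
        rw [Mk_sum, ew_Fs]
        rw [Finset.sum_div, Finset.sum_div]
        refine Finset.sum_congr rfl fun b _ => ?_
        field_simp
      have h3 : ∑ b ∈ A, Mk D w A a b *
          ((xw D w A a + qv D w B a - 1) - (xw D w A u + q - 1) + TTT D w A B u a b) =
          (xw D w A a + qv D w B a - (xw D w A u + q) + fv D w B u + epv D w B u a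
            + bv D w B u a * (1 - xw D w A u / q)
            + mv D w B u a * (3/4*mv D w B u a - phv D w B u a) / q) * ∑ b ∈ A, Mk D w A a b -
          ∑ b ∈ A, Mk D w A a b * (xw D w A a * bv D w B u b / q) := by
        rw [Finset.mul_sum, ← Finset.sum_sub_distrib]
        refine Finset.sum_congr rfl fun b _ => ?_
        unfold TTT
        rw [hqe]
        ring
      rw [h3, h2, Mk_row D w A a hxa]
      have h4 : (C1 + ew D w (Qs D B u) (Qs D A a)) / q =
          C1 / q + ew D w (Qs D B u) (Qs D A a) / q := add_div _ _ _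
      rw [h4] at h1
      linarith
    by_cases hua : D.arc u a
    · have hk := key hua
      refine ⟨mul_le_mul_of_nonneg_left hk.le (Mk_nonneg D w hw A u a), fun hpos => ?_⟩
      exact mul_lt_mul_of_pos_left hk hpos
    · have h0 : Mk D w A u a = 0 := by unfold Mk; rw [if_neg hua]
      rw [h0]
      simp
  have hxu := hx u hu
  have hrow := Mk_row D w A u hxu
  have hex : ∃ a ∈ A, 0 < Mk D w A u a := by
    by_contra hcon'
    push Not at hcon'
    have : ∑ a ∈ A, Mk D w A u a ≤ 0 := Finset.sum_nonpos hcon'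
    linarith
  obtain ⟨a0, ha0, ha0'⟩ := hex
  have hlt : ∑ a ∈ A, Mk D w A u a * ∑ b ∈ A, Mk D w A a b *
      ((xw D w A a + qv D w B a - 1) - (xw D w A u + q - 1) + TTT D w A B u a b) <
      ∑ a ∈ A, Mk D w A u a * (C1 / q - bv D w B u a * (xw D w A u / q)) :=
    Finset.sum_lt_sum (fun a ha => (hin a ha).1) ⟨a0, ha0, (hin a0 ha0).2 ha0'⟩
  have hzero : ∑ a ∈ A, Mk D w A u a * (C1 / q - bv D w B u a * (xw D w A u / q)) = 0 := by
    have h5 : ∑ a ∈ A, Mk D w A u a * (bv D w B u a * (xw D w A u / q)) = C1 / q := by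
      rw [Mk_sum, hC1, ew_Fs, Finset.sum_div, Finset.sum_div]
      refine Finset.sum_congr rfl fun b _ => ?_
      field_simp
    simp_rw [mul_sub]
    rw [Finset.sum_sub_distrib, h5, ← Finset.sum_mul, hrow]
    ring
  rw [hzero] at hlt
  refine lt_of_eq_of_lt ?_ hlt
  refine Finset.sum_congr rfl fun a _ => ?_
  rw [Finset.mul_sum]
  refine Finset.sum_congr rfl fun b _ => ?_
  ring

end Vale.Agent.P038.K4
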