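import Vale.Agent.P038.K4.Graph
import Vale.Agent.P038.K4.L.Frame

/-!
# From the local inequality to second neighbourhoods, local version
-/

namespace Vale.Agent.P038.K4

open Finset

variable {V : Type*} [Fintype V]

open Classical in
/-- Normalised version. -/
theorem coreL (k : ℝ) (lm kp : ℝ → ℝ → ℝ → ℝ) (P : ℝ → ℝ → ℝ → ℝ → ℝ → ℝ → ℝ)
    (hlm : ∀ x f g, 0 < x → x < 1 → lm x f g < 1)
    (hkp : ∀ x f g, 0 < x → x < 1 → 0 ≤ f → 0 ≤ g → f + g ≤ x → 0 ≤ kp x f g)
    (hL : LocalGen k lm kp P) (D : OGraph V) (w : V → ℝ) (hw : ∀ v, 0 ≤ w v)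
    (v0 : V) (hD : LocalFree D v0) (h1 : wt w (N1 D v0) = 1) (hmin : ∀ v, 1 ≤ wt w (N1 D v))
    (hcon : ∀ v, (v = v0 ∨ D.arc v0 v) → wt w (N2 D v) < wt w (N1 D v)) : False := by
  set A := N1 D v0 with hA
  set B := N2 D v0 with hB
  have hB1 : wt w B < 1 := by rw [← h1]; exact hcon v0 (Or.inl rfl)
  have htri : ∀ a ∈ A, ∀ b ∈ A, ∀ c ∈ A, Joined D a b → Joined D b c → Joined D a c → False := by
    intro a ha b hb c hc hab hbc hac
    exact hD.1 v0 (Or.inl rfl) a b c (mem_N1.1 ha) (mem_N1.1 hb) (mem_N1.1 hc) hab hbc hac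
  -- out-weight of u
  have hN1 : ∀ u ∈ A, wt w (N1 D u) = xw D w A u + qv D w B u := by
    intro u hu
    have hu' := mem_N1.1 hu
    rw [xw_eq, qv]
    unfold wt
    rw [← Finset.sum_union]
    · refine Finset.sum_congr ?_ fun _ _ => rfl
      ext y
      rw [Finset.mem_union, mem_Qs, mem_Qs, mem_N1, mem_N1, mem_N2]
      constructor
      · intro h
        by_cases h' : D.arc v0 y
        · exact Or.inl ⟨h', h⟩
        · refine Or.inr ⟨⟨?_, h', u, hu', h⟩, h⟩
          rintro rfl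
          exact D.asymm _ _ hu' h
      · rintro (h | h)
        · exact h.2
        · exact h.2
    · rw [Finset.disjoint_left]
      intro y hy hy'
      rw [mem_Qs, mem_N1] at hy
      rw [mem_Qs, mem_N2] at hy'
      exact hy'.1.2.1 hy.1
  have hqB : ∀ u, qv D w B u ≤ wt w B := fun u => wt_mono hw (Qs_sub D B u)
  have hx0 : ∀ u ∈ A, 0 < xw D w A u := by
    intro u hu
    have h2 := hmin u
    rw [hN1 u hu] at h2
    have := hqB u
    linarith
  -- X_u and X_a are disjoint
  have hxx : ∀ u ∈ A, ∀ a ∈ A, D.arc u a → xw D w A u + xw D w A a ≤ 1 := by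
    intro u hu a ha hua
    rw [xw_eq, xw_eq, ← h1]
    unfold wt
    rw [← Finset.sum_union]
    · refine Finset.sum_le_sum_of_subset_of_nonneg ?_ fun x _ _ => hw x
      exact Finset.union_subset (Qs_sub D A u) (Qs_sub D A a)
    · rw [Finset.disjoint_left]
      intro y hy hy'
      rw [mem_Qs] at hy hy'
      exact htri u hu a ha y hy.1 (Or.inl hua) (Or.inl hy'.2) (Or.inl hy.2)
  have hxe : ∀ u ∈ A, ∃ a ∈ A, D.arc u a := by
    intro u hu
    by_contra hcon'
    push Not at hcon'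
    have : xw D w A u = 0 := by
      rw [xw_eq]
      unfold wt
      refine Finset.sum_eq_zero fun y hy => ?_
      exact absurd (mem_Qs.1 hy).2 (hcon' y (mem_Qs.1 hy).1)
    have := hx0 u hu
    linarith
  have hx1 : ∀ u ∈ A, xw D w A u < 1 := by
    intro u hu
    obtain ⟨a, ha, hua⟩ := hxe u hu
    have h2 := hxx u hu a ha hua
    have h3 := hx0 a ha
    linarith
  have hq0 : ∀ u ∈ A, 0 < qv D w B u := by
    intro u hu
    have h2 := hmin u
    rw [hN1 u hu] at h2
    have := hx1 u hu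
    linarith
  have hne : A.Nonempty := by
    by_contra hn
    rw [Finset.not_nonempty_iff_eq_empty] at hn
    rw [hn] at h1
    unfold wt at h1
    rw [Finset.sum_empty] at h1
    linarith
  have hA1 : ∑ y ∈ A, w y = 1 := h1
  have hqe : ∀ u, 1 - (fv D w B u + gv D w B u) = qv D w B u := fun u => by unfold gv; ring
  have hnx : ∀ u ∈ A, fv D w B u + gv D w B u ≤ xw D w A u := by
    intro u hu
    have h2 := hmin u
    rw [hN1 u hu] at h2
    have := hqe u
    linarith
  refine averaging_on A hne (Mk D w A) (fun i _ j _ => Mk_nonneg D w hw A i j)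
    (fun i hi => Mk_row D w A i (hx0 i hi))
    (fun u => xw D w A u + qv D w B u - 1)
    (fun u => lm (xw D w A u) (fv D w B u) (gv D w B u))
    (fun u => kp (xw D w A u) (fv D w B u) (gv D w B u))
    (TTT D w A B)
    (fun u a b => k^2*xw D w A u*(1-xw D w A u) -
      xw D w A a*(xw D w A a + xw D w A b + 2*k*xw D w A u - 1))
    (fun u a => P (xw D w A u) (fv D w B u + gv D w B u) (fv D w B u)
      (xw D w A a) (fv D w B a + gv D w B a) (fv D w B a))
    ?_ ?_ ?_ ?_ ?_
  · intro u hu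
    have := hlm (xw D w A u) (fv D w B u) (gv D w B u) (hx0 u hu) (hx1 u hu)
    linarith
  · intro u hu
    exact hkp _ _ _ (hx0 u hu) (hx1 u hu) (fv_nonneg D w hw B u) (gv_nonneg D w hw B hB1.le u)
      (hnx u hu)
  · intro u hu
    exact frameH1L D w hw v0 u hD (mem_N1.1 hu) hmin (hcon u (Or.inr (mem_N1.1 hu)))
      (fun a ha => hx0 a (mem_N1.2 ha)) (hq0 u hu)
  · intro u hu
    exact astruct k D w hw A hA1 htri hx0 u hu
  · intro u hu a ha b hb hua hab
    have hua' : D.arc u a := by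
      by_contra hn
      unfold Mk at hua
      rw [if_neg hn] at hua
      exact lt_irrefl _ hua
    have hab' : D.arc a b := by
      by_contra hn
      unfold Mk at hab
      rw [if_neg hn] at hab
      exact lt_irrefl _ hab
    have h := hL (xw D w A u) (xw D w A a) (xw D w A b) (fv D w B u) (gv D w B u)
      (mv D w B u a) (bv D w B u a) (phv D w B u a) (epv D w B u a)
      (fv D w B a - bv D w B u a) (fv D w B b) (gv D w B b) (bv D w B u b)
      (hx0 a ha).le (hx0 b hb).le (fv_nonneg D w hw B u) (gv_nonneg D w hw B hB1.le u)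
      (mv_nonneg D w hw B u a) (bv_nonneg D w hw B u a) (phv_nonneg D w hw B u a)
      (epv_nonneg D w hw B hB1.le u a) (h_nonneg D w hw B u a) (fv_nonneg D w hw B b)
      (gv_nonneg D w hw B hB1.le b) (bv_nonneg D w hw B u b) (hx0 u hu) (hx1 u hu)
      (hnx u hu) (hxx u hu a ha hua') (hxx a ha b hb hab')
      (by rw [← n_eq]; exact hnx a ha) (by rw [hqe]; exact mb_le_q D w hw B u a)
      (phv_le D w hw B u a) (epv_le D w hw B u a) (h_le D w hw B hB1.le u a)
      (hnx b hb) (bv_le_f D w hw B u b) (by rw [hqe]; exact bv_le_q D w hw B u b)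
    rw [← n_eq D w B u a] at h
    have hf : bv D w B u a + (fv D w B a - bv D w B u a) = fv D w B a := by ring
    rw [hf] at h
    have he : ∀ t, xw D w A t - (fv D w B t + gv D w B t) = xw D w A t + qv D w B t - 1 := by
      intro t
      have := hqe t
      linarith
    rw [he u, he a] at h
    unfold TTT
    exact h

/-- Local weighted second neighbourhood theorem, from the local inequality. -/
theorem local_weighted (k : ℝ) (lm kp : ℝ → ℝ → ℝ → ℝ) (P : ℝ → ℝ → ℝ → ℝ → ℝ → ℝ → ℝ)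
    (hlm : ∀ x f g, 0 < x → x < 1 → lm x f g < 1)
    (hkp : ∀ x f g, 0 < x → x < 1 → 0 ≤ f → 0 ≤ g → f + g ≤ x → 0 ≤ kp x f g)
    (hL : LocalGen k lm kp P) (D : OGraph V) (w : V → ℝ) (hw : ∀ v, 0 ≤ w v) (v0 : V)
    (hD : LocalFree D v0) (hv0 : ∀ v, ∑ x ∈ N1 D v0, w x ≤ ∑ x ∈ N1 D v, w x) :
    ∃ v, (v = v0 ∨ D.arc v0 v) ∧ ∑ x ∈ N1 D v, w x ≤ ∑ x ∈ N2 D v, w x := by
  by_contra hcon
  push Not at hcon
  set δ := ∑ x ∈ N1 D v0, w x with hδ
  have hs0 : 0 ≤ ∑ x ∈ N2 D v0, w x := Finset.sum_nonneg fun x _ => hw x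
  have hδ0 : 0 < δ := lt_of_le_of_lt hs0 (hcon v0 (Or.inl rfl))
  have hdiv : ∀ S : Finset V, wt (fun v => w v / δ) S = (∑ x ∈ S, w x) / δ := by
    intro S
    unfold wt
    rw [Finset.sum_div]
  refine coreL k lm kp P hlm hkp hL D (fun v => w v / δ) (fun v => div_nonneg (hw v) hδ0.le) v0 hD
    ?_ ?_ ?_
  · rw [hdiv]
    exact div_self hδ0.ne'
  · intro v
    rw [hdiv, le_div_iff₀ hδ0, one_mul]
    exact hv0 v
  · intro v hv
    rw [hdiv, hdiv]
    exact div_lt_div_of_pos_right (hcon v hv) hδ0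

end Vale.Agent.P038.K4
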