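import Vale.Agent.P038.K4.L.Graph
import Vale.Agent.P038.K4.Main

/-! # The local second neighbourhood theorem -/

namespace Vale.Agent.P038.K4

variable {V : Type*} [Fintype V]

theorem local_snc_weighted (D : OGraph V) (w : V → ℝ) (hw : ∀ v, 0 ≤ w v) (v0 : V)
    (hv0 : ∀ v, ∑ x ∈ N1 D v0, w x ≤ ∑ x ∈ N1 D v, w x) (hD : LocalFree D v0) :
    ∃ v, (v = v0 ∨ D.arc v0 v) ∧ ∑ x ∈ N1 D v, w x ≤ ∑ x ∈ N2 D v, w x := by
  refine local_weighted (7/10) lm38 kp38 P38 ?_ ?_ (localGen38 H706.formAll) D w hw v0 hD hv0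
  · intro x f g h0 h1
    unfold lm38
    exact max_lt one_pos (by linarith)
  · intro x f g h0 h1 hf hg hfg
    unfold kp38
    exact div_nonneg (by positivity) (by linarith)

theorem local_snc_card (D : OGraph V) (v0 : V)
    (hv0 : ∀ v, (N1 D v0).card ≤ (N1 D v).card) (hD : LocalFree D v0) :
    ∃ v, (v = v0 ∨ D.arc v0 v) ∧ (N1 D v).card ≤ (N2 D v).card := by
  obtain ⟨v, hv, h⟩ := local_snc_weighted D (fun _ => (1 : ℝ)) (fun _ => zero_le_one) v0
    (fun v => by simpa using hv0 v) hD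
  refine ⟨v, hv, ?_⟩
  simpa using h

end Vale.Agent.P038.K4
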